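import Vale.Agent.P274.Holo

/-!
Bounded quasi-circular domains with a compact quotient are homogeneous.
-/

namespace Vale.Agent.P274

open Metric Set Filter Topology

variable {N : ℕ}

/-- `f` is a biholomorphic self-map of `U` with inverse `g`. -/
structure Aut (U : Set (Fin N → ℂ)) where
  toFun : (Fin N → ℂ) → (Fin N → ℂ)
  invFun : (Fin N → ℂ) → (Fin N → ℂ)
  mapsTo : MapsTo toFun U U
  mapsTo' : MapsTo invFun U U
  diff : DifferentiableOn ℂ toFun U
  diff' : DifferentiableOn ℂ invFun U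
  left_inv : ∀ x ∈ U, invFun (toFun x) = x
  right_inv : ∀ x ∈ U, toFun (invFun x) = x

namespace Aut

variable {U : Set (Fin N → ℂ)}

def symm (f : Aut U) : Aut U :=
  ⟨f.invFun, f.toFun, f.mapsTo', f.mapsTo, f.diff', f.diff, f.right_inv, f.left_inv⟩

def one (U : Set (Fin N → ℂ)) : Aut U :=
  ⟨id, id, mapsTo_id U, mapsTo_id U, differentiableOn_id, differentiableOn_id,
    fun _ _ => rfl, fun _ _ => rfl⟩

def trans (f g : Aut U) : Aut U where
  toFun := fun x => g.toFun (f.toFun x)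
  invFun := fun x => f.invFun (g.invFun x)
  mapsTo := g.mapsTo.comp f.mapsTo
  mapsTo' := f.mapsTo'.comp g.mapsTo'
  diff := g.diff.comp f.diff f.mapsTo
  diff' := f.diff'.comp g.diff' g.mapsTo'
  left_inv x hx := by rw [g.left_inv _ (f.mapsTo hx), f.left_inv x hx]
  right_inv x hx := by rw [f.right_inv _ (g.mapsTo' hx), g.right_inv x hx]

end Aut

/-- The weighted action of a scalar. -/
noncomputable def wsmul (w : Fin N → ℕ) (ζ : ℂ) (z : Fin N → ℂ) : Fin N → ℂ :=
  fun j => ζ ^ w j * z j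

/-- The infinitesimal generator of the weighted scaling. -/
noncomputable def euler (w : Fin N → ℕ) : (Fin N → ℂ) →L[ℂ] (Fin N → ℂ) :=
  ContinuousLinearMap.pi fun j => (w j : ℂ) • ContinuousLinearMap.proj j

theorem euler_apply (w : Fin N → ℕ) (z : Fin N → ℂ) (j : Fin N) :
    euler w z j = (w j : ℂ) * z j := by simp [euler]

theorem wsmul_one (w : Fin N → ℕ) (z : Fin N → ℂ) : wsmul w 1 z = z := by
  funext j; simp [wsmul]

theorem wsmul_zero_vec (w : Fin N → ℕ) (ζ : ℂ) : wsmul w ζ 0 = 0 := by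
  funext j; simp [wsmul]

theorem wsmul_wsmul (w : Fin N → ℕ) (a b : ℂ) (z : Fin N → ℂ) :
    wsmul w a (wsmul w b z) = wsmul w (a * b) z := by
  funext j; simp [wsmul, mul_pow, mul_assoc]

theorem continuous_wsmul (w : Fin N → ℕ) :
    Continuous fun p : ℂ × (Fin N → ℂ) => wsmul w p.1 p.2 := by
  unfold wsmul; fun_prop

theorem differentiable_wsmul_left (w : Fin N → ℕ) (z : Fin N → ℂ) :
    Differentiable ℂ fun ζ => wsmul w ζ z := by
  unfold wsmul; rw [differentiable_pi]; intro j; fun_prop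

theorem differentiable_wsmul_right (w : Fin N → ℕ) (ζ : ℂ) :
    Differentiable ℂ (wsmul w ζ) := by
  unfold wsmul; rw [differentiable_pi]; intro j; fun_prop

theorem exists_exp_of_norm_one {ζ : ℂ} (h : ‖ζ‖ = 1) :
    ∃ t : ℝ, ζ = Complex.exp ((t : ℂ) * Complex.I) :=
  ⟨ζ.arg, by
    have := Complex.norm_mul_exp_arg_mul_I ζ
    rw [h] at this
    simpa using this.symm⟩

/-- The standing hypotheses. -/
structure QCData {N : ℕ} (U : Set (Fin N → ℂ)) (w : Fin N → ℕ) : Prop where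
  isOpen : IsOpen U
  preconn : IsPreconnected U
  bdd : Bornology.IsBounded U
  wpos : ∀ j, 0 < w j
  zero_mem : (0 : Fin N → ℂ) ∈ U
  rot : ∀ ζ : ℂ, ‖ζ‖ = 1 → ∀ z ∈ U, wsmul w ζ z ∈ U
  cocpt : ∃ K, IsCompact K ∧ K ⊆ U ∧ ∀ x ∈ U, ∃ f : Aut U, f.toFun x ∈ K

namespace QCData

variable {U : Set (Fin N → ℂ)} {w : Fin N → ℕ} (d : QCData U w)
include d

theorem wsmul_zero (z : Fin N → ℂ) : wsmul w 0 z = 0 := by
  funext j; simp [wsmul, (d.wpos j).ne']

theorem exists_bound : ∃ M : ℝ, 0 < M ∧ ∀ z ∈ U, ‖z‖ ≤ M := by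
  obtain ⟨M, hM, h⟩ := d.bdd.exists_pos_norm_le
  exact ⟨M, hM, h⟩

/-- The rotation as an automorphism. -/
noncomputable def rotAut (ζ : ℂ) (h : ‖ζ‖ = 1) : Aut U where
  toFun := wsmul w ζ
  invFun := wsmul w ζ⁻¹
  mapsTo := fun z hz => d.rot ζ h z hz
  mapsTo' := fun z hz => d.rot ζ⁻¹ (by simp [h]) z hz
  diff := (differentiable_wsmul_right w ζ).differentiableOn
  diff' := (differentiable_wsmul_right w ζ⁻¹).differentiableOn
  left_inv x _ := by
    rw [wsmul_wsmul, inv_mul_cancel₀ (by intro h0; simp [h0] at h), wsmul_one]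
  right_inv x _ := by
    rw [wsmul_wsmul, mul_inv_cancel₀ (by intro h0; simp [h0] at h), wsmul_one]

/-- Points reached by radial scaling from limits of full radii stay in the domain. -/
theorem radial_mem {x : Fin N → ℂ}
    (hx : x ∈ closure {y | y ∈ U ∧ ∀ r ∈ Icc (0 : ℝ) 1, wsmul w (r : ℂ) y ∈ U})
    {r : ℝ} (hr0 : 0 ≤ r) (hr1 : r < 1) : wsmul w (r : ℂ) x ∈ U := by
  set T := {y | y ∈ U ∧ ∀ r ∈ Icc (0 : ℝ) 1, wsmul w (r : ℂ) y ∈ U} with hT
  obtain ⟨K, hK, hKU, hcov⟩ := d.cocpt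
  obtain ⟨ρ, hρ, hρU⟩ := hK.exists_cthickening_subset_open d.isOpen hKU
  obtain ⟨M, hM, hMb⟩ := d.exists_bound
  have h1r : 0 < 1 - r := by linarith
  set δ := min (ρ * (1 - r) / (4 * M)) ((1 - r) / 2) with hδ
  have hδpos : 0 < δ := by rw [hδ]; positivity
  have hNB : (𝓝[T] x).NeBot := mem_closure_iff_nhdsWithin_neBot.1 hx
  have step : ∀ a b : ℝ, 0 ≤ a → a ≤ r → 0 ≤ b → b ≤ r → |b - a| ≤ δ →
      wsmul w (a : ℂ) x ∈ U → wsmul w (b : ℂ) x ∈ U := by
    intro a b ha ha' hb hb' hab hax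
    obtain ⟨g, hg⟩ := hcov _ hax
    have hcy : ContinuousAt g.toFun (wsmul w (a : ℂ) x) :=
      g.diff.continuousOn.continuousAt (d.isOpen.mem_nhds hax)
    have hcont : Tendsto (fun y => g.toFun (wsmul w (a : ℂ) y)) (𝓝[T] x)
        (𝓝 (g.toFun (wsmul w (a : ℂ) x))) :=
      (hcy.tendsto.comp ((differentiable_wsmul_right w (a : ℂ)).continuous.tendsto x)).mono_left
        nhdsWithin_le_nhds
    have hCc : IsCompact (cthickening ρ K) := hK.cthickening
    have himg : IsCompact (g.invFun '' cthickening ρ K) :=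
      hCc.image_of_continuousOn (g.diff'.continuousOn.mono hρU)
    have hev : ∀ᶠ y in 𝓝[T] x, wsmul w (b : ℂ) y ∈ g.invFun '' cthickening ρ K := by
      filter_upwards [Metric.tendsto_nhds.1 hcont (ρ / 2) (by positivity), self_mem_nhdsWithin]
        with y hy hyT
      have hball : ∀ ζ : ℂ, ‖ζ‖ < 1 → wsmul w ζ y ∈ U := by
        intro ζ hζ
        have h1 := hyT.2 ‖ζ‖ ⟨norm_nonneg ζ, hζ.le⟩
        by_cases h0 : ζ = 0
        · subst h0; rw [d.wsmul_zero]; exact d.zero_mem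
        · have hn : ‖ζ‖ ≠ 0 := norm_ne_zero_iff.2 h0
          have h2 := d.rot (ζ / (‖ζ‖ : ℂ)) (by simp [hn]) _ h1
          rw [wsmul_wsmul, div_mul_cancel₀ _ (by exact_mod_cast hn)] at h2
          exact h2
      have hin : ∀ ζ ∈ ball (a : ℂ) (1 - r), wsmul w ζ y ∈ U := by
        intro ζ hζ
        apply hball
        rw [mem_ball, dist_eq_norm] at hζ
        have : ‖(a : ℂ)‖ = a := by simp [abs_of_nonneg ha]
        linarith [norm_le_norm_add_norm_sub' ζ (a : ℂ)]
      have hbmem : wsmul w (b : ℂ) y ∈ U := hyT.2 b ⟨hb, by linarith⟩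
      refine ⟨g.toFun (wsmul w (b : ℂ) y), ?_, g.left_inv _ hbmem⟩
      apply mem_cthickening_of_dist_le _ (g.toFun (wsmul w (a : ℂ) x)) _ _ hg
      rcases eq_or_ne a b with rfl | hne
      · linarith [hy]
      have hbd := Complex.dist_le_div_mul_dist_of_mapsTo_ball
        (f := fun ζ : ℂ => g.toFun (wsmul w ζ y)) (c := (a : ℂ)) (R₁ := 1 - r) (R₂ := 2 * M)
        (z := (b : ℂ))
        (g.diff.comp (differentiable_wsmul_left w y).differentiableOn hin)
        (fun ζ hζ => by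
          rw [mem_closedBall, dist_eq_norm]
          have h1 := hMb _ (g.mapsTo (hin ζ hζ))
          have h2 := hMb _ (g.mapsTo (hyT.2 a ⟨ha, by linarith⟩))
          linarith [norm_sub_le (g.toFun (wsmul w ζ y)) (g.toFun (wsmul w (a : ℂ) y))])
        (by
          rw [mem_ball, Complex.dist_eq, ← Complex.ofReal_sub, Complex.norm_real, Real.norm_eq_abs]
          linarith [hab.trans (min_le_right _ _)])
      rw [Complex.dist_eq, ← Complex.ofReal_sub, Complex.norm_real, Real.norm_eq_abs] at hbd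
      have hle : 2 * M / (1 - r) * |b - a| ≤ ρ / 2 := by
        calc _ ≤ 2 * M / (1 - r) * (ρ * (1 - r) / (4 * M)) := by
              gcongr; exact hab.trans (min_le_left _ _)
          _ = ρ / 2 := by field_simp; ring
      linarith [dist_triangle (g.toFun (wsmul w (b : ℂ) y)) (g.toFun (wsmul w (a : ℂ) y))
        (g.toFun (wsmul w (a : ℂ) x))]
    obtain ⟨c, hc, hc'⟩ : wsmul w (b : ℂ) x ∈ g.invFun '' cthickening ρ K := by
      refine himg.isClosed.mem_of_tendsto ?_ hev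
      exact ((differentiable_wsmul_right w (b : ℂ)).continuous.tendsto x).mono_left
        nhdsWithin_le_nhds
    rw [← hc']
    exact g.mapsTo' (hρU hc)
  obtain ⟨n, hn⟩ := exists_nat_ge (1 / δ)
  have hind : ∀ k : ℕ, k ≤ n + 1 → wsmul w (((k : ℝ) * (r / (n + 1)) : ℝ) : ℂ) x ∈ U := by
    intro k
    induction k with
    | zero => intro; simpa [d.wsmul_zero] using d.zero_mem
    | succ k ih =>
      intro hk
      have hk' : (k : ℝ) + 1 ≤ n + 1 := by exact_mod_cast hk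
      have hn1 : (0 : ℝ) < n + 1 := by positivity
      have hmul : ∀ c : ℝ, c ≤ n + 1 → c * (r / (n + 1)) ≤ r := by
        intro c hc
        rw [mul_div, div_le_iff₀ hn1]
        nlinarith
      refine step ((k : ℝ) * (r / (n + 1))) _ (by positivity) (hmul _ (by linarith)) (by positivity)
        (hmul _ (by push_cast; linarith)) ?_ (ih (Nat.le_of_succ_le hk))
      push_cast
      rw [show ((k : ℝ) + 1) * (r / (n + 1)) - k * (r / (n + 1)) = r / (n + 1) by ring,
        abs_of_nonneg (by positivity), div_le_iff₀ hn1]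
      rw [div_le_iff₀ hδpos] at hn
      nlinarith
  have := hind (n + 1) le_rfl
  rwa [show (((n + 1 : ℕ) : ℝ) * (r / (n + 1))) = r by push_cast; field_simp] at this

theorem balanced {x : Fin N → ℂ} (hx : x ∈ U) {ζ : ℂ} (hζ : ‖ζ‖ ≤ 1) : wsmul w ζ x ∈ U := by
  set T := {y | y ∈ U ∧ ∀ r ∈ Icc (0 : ℝ) 1, wsmul w (r : ℂ) y ∈ U} with hT
  have hopen : IsOpen T := by
    rw [isOpen_iff_mem_nhds]
    intro y hy
    have h1 : ∀ᶠ z in 𝓝 y, ∀ r ∈ Icc (0 : ℝ) 1, wsmul w (r : ℂ) z ∈ U := by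
      refine isCompact_Icc.eventually_forall_of_forall_eventually fun r hr => ?_
      have hc : Continuous fun q : (Fin N → ℂ) × ℝ => wsmul w (q.2 : ℂ) q.1 :=
        (continuous_wsmul w).comp
          ((Complex.continuous_ofReal.comp continuous_snd).prodMk continuous_fst)
      exact hc.continuousAt.preimage_mem_nhds (d.isOpen.mem_nhds (hy.2 r hr))
    filter_upwards [h1, d.isOpen.mem_nhds hy.1] with z hz hzU using ⟨hzU, hz⟩
  have h0T : (0 : Fin N → ℂ) ∈ T :=
    ⟨d.zero_mem, fun r _ => by rw [wsmul_zero_vec]; exact d.zero_mem⟩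
  have hsub : U ⊆ T := by
    refine d.preconn.subset_of_closure_inter_subset hopen ⟨0, d.zero_mem, h0T⟩ ?_
    rintro y ⟨hy, hyU⟩
    refine ⟨hyU, fun r hr => ?_⟩
    rcases hr.2.lt_or_eq with h | h
    · exact d.radial_mem hy hr.1 h
    · subst h; simpa [wsmul_one] using hyU
  have h1 := (hsub hx).2 ‖ζ‖ ⟨norm_nonneg ζ, hζ⟩
  by_cases h0 : ζ = 0
  · subst h0; rw [d.wsmul_zero]; exact d.zero_mem
  · have hn : ‖ζ‖ ≠ 0 := norm_ne_zero_iff.2 h0
    have h2 := d.rot (ζ / (‖ζ‖ : ℂ)) (by simp [hn]) _ h1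
    rw [wsmul_wsmul, div_mul_cancel₀ _ (by exact_mod_cast hn)] at h2
    exact h2

theorem closure_eq :
    closure U = closure {y | y ∈ U ∧ ∀ r ∈ Icc (0 : ℝ) 1, wsmul w (r : ℂ) y ∈ U} := by
  congr 1
  ext y
  exact ⟨fun h => ⟨h, fun r hr => d.balanced h (by simp [abs_of_nonneg hr.1, hr.2])⟩, fun h => h.1⟩

/-- Scaled copies of the domain are relatively compact in it. -/
theorem exists_compact_scaled {s : ℝ} (hs0 : 0 ≤ s) (hs : s < 1) :
    ∃ L, IsCompact L ∧ L ⊆ U ∧ ∀ x ∈ U, wsmul w (s : ℂ) x ∈ L := by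
  refine ⟨wsmul w (s : ℂ) '' closure U,
    d.bdd.isCompact_closure.image (differentiable_wsmul_right w (s : ℂ)).continuous, ?_,
    fun x hx => mem_image_of_mem _ (subset_closure hx)⟩
  rintro _ ⟨x, hx, rfl⟩
  rw [d.closure_eq] at hx
  exact d.radial_mem hx hs0 hs

theorem exists_scale_gt_one {K : Set (Fin N → ℂ)} (hK : IsCompact K) (hKU : K ⊆ U) :
    ∃ ρ : ℝ, 1 < ρ ∧ ∀ ζ : ℂ, ‖ζ‖ < ρ → ∀ k ∈ K, wsmul w ζ k ∈ U := by
  have hev : ∀ ζ ∈ closedBall (0 : ℂ) 1, ∀ k ∈ K,
      ∀ᶠ z : ℂ × (Fin N → ℂ) in 𝓝 (ζ, k), wsmul w z.1 z.2 ∈ U := by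
    intro ζ hζ k hk
    exact (continuous_wsmul w).continuousAt.preimage_mem_nhds
      (d.isOpen.mem_nhds (d.balanced (hKU hk) (by simpa using hζ)))
  set Ω := {ζ : ℂ | ∀ k ∈ K, wsmul w ζ k ∈ U} with hΩ
  have hΩo : IsOpen Ω := by
    rw [isOpen_iff_mem_nhds]
    intro ζ hζ
    exact hK.eventually_forall_of_forall_eventually fun k hk =>
      (continuous_wsmul w).continuousAt.preimage_mem_nhds (d.isOpen.mem_nhds (hζ k hk))
  have hsub : closedBall (0 : ℂ) 1 ⊆ Ω := fun ζ hζ k hk =>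
    d.balanced (hKU hk) (by simpa using hζ)
  obtain ⟨δ, hδ, hδΩ⟩ := (isCompact_closedBall (0 : ℂ) 1).exists_cthickening_subset_open hΩo hsub
  refine ⟨1 + δ, by linarith, fun ζ hζ => hδΩ ?_⟩
  rw [cthickening_closedBall hδ.le zero_le_one]
  simpa [add_comm] using hζ.le

/-- The orbit of the centre. -/
def orbit (U : Set (Fin N → ℂ)) : Set (Fin N → ℂ) := {y | ∃ f : Aut U, f.toFun 0 = y}

omit d in
theorem orbit_inv {y : Fin N → ℂ} (g : Aut U) (hy : y ∈ orbit U) : g.toFun y ∈ orbit U := by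
  obtain ⟨f, rfl⟩ := hy
  exact ⟨f.trans g, rfl⟩

theorem orbit_subset : orbit U ⊆ U := by
  rintro y ⟨f, rfl⟩; exact f.mapsTo d.zero_mem

theorem bounded_vanishing {F : (Fin N → ℂ) → ℂ} (hF : DifferentiableOn ℂ F U) {B : ℝ}
    (hB : ∀ x ∈ U, ‖F x‖ ≤ B) (h0 : ∀ y ∈ orbit U, F y = 0) : ∀ x ∈ U, F x = 0 := by
  obtain ⟨K, hK, hKU, hcov⟩ := d.cocpt
  obtain ⟨ρ, hρ, hρU⟩ := d.exists_scale_gt_one hK hKU
  have hn : ∀ n : ℕ, ∀ x ∈ U, ‖F x‖ ≤ B * (1 / ρ) ^ n := by
    intro n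
    induction n with
    | zero => simpa using hB
    | succ n ih =>
      intro x hx
      obtain ⟨g, hg⟩ := hcov x hx
      set k := g.toFun x with hk
      have h00 : F (g.invFun 0) = 0 := h0 _ ⟨g.symm, rfl⟩
      have hmap : MapsTo (fun ζ => wsmul w ζ k) (ball (0 : ℂ) ρ) U := fun ζ hζ =>
        hρU ζ (by simpa using hζ) k hg
      have hb := Complex.dist_le_div_mul_dist_of_mapsTo_ball
        (f := fun ζ : ℂ => F (g.invFun (wsmul w ζ k))) (c := 0) (R₁ := ρ)
        (R₂ := B * (1 / ρ) ^ n) (z := 1)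
        ((hF.comp g.diff' g.mapsTo').comp (differentiable_wsmul_left w k).differentiableOn hmap)
        (fun ζ hζ => by
          simp only [mem_closedBall, d.wsmul_zero, h00, dist_zero_right]
          exact ih _ (g.mapsTo' (hmap hζ)))
        (by simp; linarith)
      simp only [d.wsmul_zero, h00, dist_zero_right, wsmul_one, norm_one, mul_one,
        hk, g.left_inv x hx] at hb
      calc ‖F x‖ ≤ B * (1 / ρ) ^ n / ρ := hb
        _ = B * (1 / ρ) ^ (n + 1) := by rw [pow_succ]; ring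
  intro x hx
  have hlt : 1 / ρ < 1 := by rw [div_lt_one (by linarith)]; exact hρ
  have ht : Tendsto (fun n : ℕ => B * (1 / ρ) ^ n) atTop (𝓝 0) := by
    simpa using (tendsto_pow_atTop_nhds_zero_of_lt_one (by positivity) hlt).const_mul B
  exact norm_le_zero_iff.1 (ge_of_tendsto' ht fun n => hn n x hx)

/-- The orbit of the centre is a uniqueness set for holomorphic functions. -/
theorem vanishing {F : (Fin N → ℂ) → ℂ} (hF : DifferentiableOn ℂ F U)
    (h0 : ∀ y ∈ orbit U, F y = 0) : ∀ x ∈ U, F x = 0 := by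
  have hs : ∀ s ∈ Ico (0 : ℝ) 1, ∀ x ∈ U, F (wsmul w (s : ℂ) x) = 0 := by
    intro s hs
    obtain ⟨L, hL, hLU, hsL⟩ := d.exists_compact_scaled hs.1 hs.2
    obtain ⟨B, hB⟩ := hL.exists_bound_of_continuousOn (hF.continuousOn.mono hLU)
    refine d.bounded_vanishing
      (hF.comp (differentiable_wsmul_right w (s : ℂ)).differentiableOn
        (fun x hx => hLU (hsL x hx)))
      (fun x hx => hB _ (hsL x hx)) (fun p hp => ?_)
    have hpU := d.orbit_subset hp
    have hd : DifferentiableOn ℂ (fun ζ => F (wsmul w ζ p)) (closedBall 0 1) :=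
      hF.comp (differentiable_wsmul_left w p).differentiableOn
        (fun ζ hζ => d.balanced hpU (by simpa using hζ))
    have := Complex.norm_le_of_forall_mem_frontier_norm_le (f := fun ζ => F (wsmul w ζ p))
      (U := ball (0 : ℂ) 1) isBounded_ball (hd.diffContOnCl_ball subset_rfl) (C := 0) ?_
      (z := (s : ℂ)) ?_
    · exact norm_le_zero_iff.1 this
    · rw [frontier_ball _ one_ne_zero]
      intro ζ hζ
      rw [mem_sphere, dist_zero_right] at hζ
      have : wsmul w ζ p ∈ orbit U := orbit_inv (d.rotAut ζ hζ) hp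
      simp [h0 _ this]
    · rw [closure_ball _ one_ne_zero]
      simp [abs_of_nonneg hs.1, hs.2.le]
  intro x hx
  have hc : ContinuousAt (fun s : ℝ => F (wsmul w (s : ℂ) x)) 1 := by
    refine ContinuousAt.comp ?_ (((differentiable_wsmul_left w x).continuous.comp
      Complex.continuous_ofReal).continuousAt)
    simp only [Complex.ofReal_one, wsmul_one]
    exact hF.continuousOn.continuousAt (d.isOpen.mem_nhds hx)
  have h1 : Tendsto (fun s : ℝ => F (wsmul w (s : ℂ) x)) (𝓝[<] 1) (𝓝 (F x)) := by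
    simpa [wsmul_one] using hc.tendsto.mono_left nhdsWithin_le_nhds
  refine tendsto_nhds_unique h1 (tendsto_const_nhds.congr' ?_)
  filter_upwards [Ioo_mem_nhdsLT (zero_lt_one : (0 : ℝ) < 1)] with s hs'
  exact (hs s ⟨hs'.1.le, hs'.2⟩ x hx).symm

end QCData

end Vale.Agent.P274
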