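import Mathlib

/-! Holomorphic maps of several variables are strictly differentiable, with differentiable
directional derivatives. -/

namespace Vale.Agent.P274

open Metric Set Filter Topology

variable {E F : Type*} [NormedAddCommGroup E] [NormedSpace ℂ E] [FiniteDimensional ℂ E]
  [NormedAddCommGroup F] [NormedSpace ℂ F] {f : E → F} {U : Set E} {x : E}

/-- Cauchy estimate. -/
theorem norm_fderiv_le_of_bound {f : E → F} {c : E} {R B : ℝ} (hR : 0 < R)
    (hd : DifferentiableOn ℂ f (ball c R)) (hB : ∀ z ∈ ball c R, ‖f z‖ ≤ B) :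
    ‖fderiv ℂ f c‖ ≤ 2 * B / R := by
  refine Complex.norm_fderiv_le_div_of_mapsTo_ball hd (fun z hz => ?_) hR
  rw [mem_closedBall, dist_eq_norm]
  calc ‖f z - f c‖ ≤ ‖f z‖ + ‖f c‖ := norm_sub_le _ _
    _ ≤ 2 * B := by linarith [hB z hz, hB c (mem_ball_self hR)]

theorem continuousAt_fderiv_holo (hU : IsOpen U) (hf : DifferentiableOn ℂ f U) (hx : x ∈ U) :
    ContinuousAt (fderiv ℂ f) x := by
  obtain ⟨R, hR, hRU⟩ := (nhds_basis_closedBall (x := x)).mem_iff.1 (hU.mem_nhds hx)
  have hc := isCompact_closedBall x R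
  have huc := hc.uniformContinuousOn_of_continuous (hf.continuousOn.mono hRU)
  rw [Metric.continuousAt_iff]
  intro ε hε
  obtain ⟨δ, hδ, hδ'⟩ := Metric.uniformContinuousOn_iff.1 huc (ε * R / 8) (by positivity)
  refine ⟨min δ (R / 2), by positivity, fun y hy => ?_⟩
  rw [dist_eq_norm] at hy ⊢
  have hy1 : ‖y - x‖ < δ := hy.trans_le (min_le_left _ _)
  have hy2 : ‖y - x‖ < R / 2 := hy.trans_le (min_le_right _ _)
  have hmem : ∀ z ∈ ball x (R / 2), z + (y - x) ∈ closedBall x R := by
    intro z hz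
    rw [mem_ball, dist_eq_norm] at hz
    rw [mem_closedBall, dist_eq_norm]
    calc ‖z + (y - x) - x‖ = ‖(z - x) + (y - x)‖ := by congr 1; abel
      _ ≤ ‖z - x‖ + ‖y - x‖ := norm_add_le _ _
      _ ≤ R := by linarith
  have hmem' : ∀ z ∈ ball x (R / 2), z ∈ closedBall x R := fun z hz =>
    ball_subset_closedBall (ball_subset_ball (by linarith) hz)
  have h1 : DifferentiableOn ℂ (fun z => f (z + (y - x))) (ball x (R / 2)) :=
    hf.comp (by fun_prop) (fun z hz => hRU (hmem z hz))
  have h2 : DifferentiableOn ℂ f (ball x (R / 2)) := hf.mono (fun z hz => hRU (hmem' z hz))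
  have hb : ∀ z ∈ ball x (R / 2), ‖f (z + (y - x)) - f z‖ ≤ ε * R / 8 := by
    intro z hz
    have := hδ' (z + (y - x)) (hmem z hz) z (hmem' z hz) (by simpa [dist_eq_norm] using hy1)
    rw [dist_eq_norm] at this
    exact this.le
  have hest := norm_fderiv_le_of_bound (f := fun z => f (z + (y - x)) - f z) (half_pos hR)
    (h1.sub h2) hb
  have hx' : x ∈ ball x (R / 2) := mem_ball_self (half_pos hR)
  rw [fderiv_fun_sub (h1.differentiableAt (isOpen_ball.mem_nhds hx'))
    (h2.differentiableAt (isOpen_ball.mem_nhds hx')), fderiv_comp_add_right] at hest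
  rw [add_sub_cancel] at hest
  calc _ ≤ 2 * (ε * R / 8) / (R / 2) := hest
    _ < ε := by field_simp; linarith

theorem hasStrictFDerivAt_holo (hU : IsOpen U) (hf : DifferentiableOn ℂ f U) (hx : x ∈ U) :
    HasStrictFDerivAt f (fderiv ℂ f x) x := by
  refine hasStrictFDerivAt_of_hasFDerivAt_of_continuousAt ?_ (continuousAt_fderiv_holo hU hf hx)
  filter_upwards [hU.mem_nhds hx] with y hy
  exact (hf.differentiableAt (hU.mem_nhds hy)).hasFDerivAt

theorem continuousOn_fderiv_holo (hU : IsOpen U) (hf : DifferentiableOn ℂ f U) :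
    ContinuousOn (fderiv ℂ f) U :=
  fun _ hx => (continuousAt_fderiv_holo hU hf hx).continuousWithinAt

variable [CompleteSpace F]

/-- Directional derivatives of holomorphic maps are holomorphic. -/
theorem differentiableOn_fderiv_apply (hU : IsOpen U) (hf : DifferentiableOn ℂ f U) (v : E) :
    DifferentiableOn ℂ (fun y => fderiv ℂ f y v) U := by
  intro x hx
  refine DifferentiableAt.differentiableWithinAt ?_
  obtain ⟨R, hR, hRU⟩ := (nhds_basis_closedBall (x := x)).mem_iff.1 (hU.mem_nhds hx)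
  have hc := isCompact_closedBall x R
  have huc := hc.uniformContinuousOn_of_continuous
    ((continuousOn_fderiv_holo hU hf).mono hRU)
  set q : ℂ → E → F := fun h y => h⁻¹ • (f (y + h • v) - f y) with hq
  set φ : E → F := fun y => fderiv ℂ f y v with hφ
  have hsmall : ∀ᶠ h : ℂ in 𝓝[≠] 0, ‖h • v‖ < R / 4 := by
    have : Tendsto (fun h : ℂ => ‖h • v‖) (𝓝 0) (𝓝 0) :=
      (show Continuous fun h : ℂ => ‖h • v‖ by fun_prop).tendsto' 0 0 (by simp)
    exact nhdsWithin_le_nhds (this.eventually (eventually_lt_nhds (by positivity)))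
  have hlim : TendstoUniformlyOn q φ (𝓝[≠] 0) (ball x (R / 2)) := by
    rw [Metric.tendstoUniformlyOn_iff]
    intro ε hε
    obtain ⟨δ, hδ, hδ'⟩ :=
      Metric.uniformContinuousOn_iff.1 huc (ε / (2 * (‖v‖ + 1))) (by positivity)
    have hsmall' : ∀ᶠ h : ℂ in 𝓝[≠] 0, ‖h • v‖ < δ := by
      have : Tendsto (fun h : ℂ => ‖h • v‖) (𝓝 0) (𝓝 0) :=
        (show Continuous fun h : ℂ => ‖h • v‖ by fun_prop).tendsto' 0 0 (by simp)
      exact nhdsWithin_le_nhds (this.eventually (eventually_lt_nhds hδ))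
    filter_upwards [hsmall, hsmall', self_mem_nhdsWithin] with h h1 h2 h0 y hy
    rw [mem_ball, dist_eq_norm] at hy
    have hseg : ∀ z ∈ segment ℝ y (y + h • v), z ∈ closedBall x R ∧ ‖z - y‖ ≤ ‖h • v‖ := by
      intro z hz
      have := norm_sub_le_of_mem_segment hz
      rw [add_sub_cancel_left] at this
      refine ⟨?_, this⟩
      rw [mem_closedBall, dist_eq_norm]
      linarith [norm_sub_le_norm_sub_add_norm_sub z y x]
    have hmv : ‖f (y + h • v) - f y - fderiv ℂ f y (y + h • v - y)‖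
        ≤ ε / (2 * (‖v‖ + 1)) * ‖y + h • v - y‖ := by
      refine (convex_segment y (y + h • v)).norm_image_sub_le_of_norm_hasFDerivWithin_le'
        (f' := fderiv ℂ f)
        (fun z hz => ((hf.differentiableAt (hU.mem_nhds (hRU (hseg z hz).1))).hasFDerivAt
          ).hasFDerivWithinAt) ?_ (left_mem_segment ℝ _ _) (right_mem_segment ℝ _ _)
      intro z hz
      have := hδ' z (hseg z hz).1 y (hseg y (left_mem_segment ℝ _ _)).1
        (by rw [dist_eq_norm]; exact (hseg z hz).2.trans_lt h2)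
      rw [dist_eq_norm] at this
      exact this.le
    rw [add_sub_cancel_left, map_smul] at hmv
    have h0' : h ≠ 0 := h0
    rw [dist_eq_norm, norm_sub_rev]
    have : q h y - φ y = h⁻¹ • (f (y + h • v) - f y - h • fderiv ℂ f y v) := by
      simp only [hq, hφ, smul_sub, inv_smul_smul₀ h0']
    rw [this, norm_smul, norm_inv]
    rw [norm_smul] at hmv
    have hh : 0 < ‖h‖ := norm_pos_iff.2 h0'
    calc ‖h‖⁻¹ * _ ≤ ‖h‖⁻¹ * (ε / (2 * (‖v‖ + 1)) * (‖h‖ * ‖v‖)) := by gcongr
      _ = ε * (‖v‖ / (2 * (‖v‖ + 1))) := by field_simp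
      _ < ε * 1 := by
        apply mul_lt_mul_of_pos_left _ hε
        rw [div_lt_one (by positivity)]; linarith [norm_nonneg v]
      _ = ε := mul_one ε
  have hqd : ∀ᶠ h : ℂ in 𝓝[≠] 0, DifferentiableOn ℂ (q h) (ball x (R / 2)) := by
    filter_upwards [hsmall] with h h1
    refine DifferentiableOn.const_smul ((hf.comp (by fun_prop) ?_).sub (hf.mono ?_)) _
    · intro z hz
      apply hRU
      rw [mem_ball, dist_eq_norm] at hz
      rw [mem_closedBall, dist_eq_norm]
      calc ‖z + h • v - x‖ = ‖(z - x) + h • v‖ := by congr 1; abel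
        _ ≤ ‖z - x‖ + ‖h • v‖ := norm_add_le _ _
        _ ≤ R := by linarith
    · exact fun z hz => hRU (ball_subset_closedBall (ball_subset_ball (by linarith) hz))
  have hcau : UniformCauchySeqOn (fun h => fderiv ℂ (q h)) (𝓝[≠] 0) (ball x (R / 4)) := by
    intro u hu
    obtain ⟨ε, hε, hεu⟩ := Metric.mem_uniformity_dist.1 hu
    have he := Metric.tendstoUniformlyOn_iff.1 hlim (ε * R / 48) (by positivity)
    filter_upwards [(he.and hqd).prod_mk (he.and hqd)] with m hm y hy
    apply hεu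
    obtain ⟨⟨h1, d1⟩, ⟨h2, d2⟩⟩ := hm
    have hsub : ball y (R / 4) ⊆ ball x (R / 2) := by
      apply ball_subset_ball'
      rw [mem_ball] at hy; linarith
    have hy' : y ∈ ball x (R / 2) := hsub (mem_ball_self (by positivity))
    have hest := norm_fderiv_le_of_bound (f := fun z => q m.1 z - q m.2 z) (B := ε * R / 24)
      (by positivity : 0 < R / 4) ((d1.mono hsub).sub (d2.mono hsub)) (fun z hz => by
        have e1 := h1 z (hsub hz)
        have e2 := h2 z (hsub hz)
        rw [← dist_eq_norm]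
        linarith [dist_triangle_left (q m.1 z) (q m.2 z) (φ z)])
    rw [fderiv_fun_sub (d1.differentiableAt (isOpen_ball.mem_nhds hy'))
      (d2.differentiableAt (isOpen_ball.mem_nhds hy'))] at hest
    rw [dist_eq_norm]
    calc _ ≤ 2 * (ε * R / 24) / (R / 4) := hest
      _ < ε := by field_simp; linarith
  have hsub : ball x (R / 4) ⊆ ball x (R / 2) := ball_subset_ball (by linarith)
  have hpt : ∀ y ∈ ball x (R / 4), ∃ L, Tendsto (fun h => fderiv ℂ (q h) y) (𝓝[≠] 0) (𝓝 L) :=
    fun y hy => CompleteSpace.complete (hcau.cauchy_map hy)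
  choose! L hL using hpt
  have hunif := hcau.tendstoUniformlyOn_of_tendsto hL
  refine (hasFDerivAt_of_tendstoUniformlyOnFilter (f := q) (g' := L) (l := 𝓝[≠] (0 : ℂ))
    ((tendstoUniformlyOn_iff_tendstoUniformlyOnFilter.1 hunif).mono_right
      (le_principal_iff.2 (ball_mem_nhds x (by positivity)))) ?_ ?_).differentiableAt
  · filter_upwards [hqd.prod_mk (ball_mem_nhds x (by positivity : 0 < R / 4))] with m hm
    exact (hm.1.differentiableAt (isOpen_ball.mem_nhds (hsub hm.2))).hasFDerivAt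
  · filter_upwards [ball_mem_nhds x (by positivity : 0 < R / 4)] with y hy
    exact hlim.tendsto_at (hsub hy)

end Vale.Agent.P274
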