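import Vale.Agent.P274.Circ

/-! Homogeneity. -/

namespace Vale.Agent.P274

open Metric Set Filter Topology

variable {N : ℕ} {U : Set (Fin N → ℂ)} {w : Fin N → ℕ}

namespace QCData

/-- The conjugated rotation field. -/
noncomputable def fld (w : Fin N → ℕ) (g : Aut U) (y : Fin N → ℂ) : Fin N → ℂ :=
  Complex.I • fderiv ℂ g.toFun (g.invFun y) (euler w (g.invFun y))

theorem differentiableOn_fld (hU : IsOpen U) (g : Aut U) :
    DifferentiableOn ℂ (fld w g) U := by
  have key : ∀ y, fld w g y = Complex.I • ∑ j, euler w (g.invFun y) j •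
      fderiv ℂ g.toFun (g.invFun y) (fun i => if j = i then 1 else 0) := by
    intro y
    conv_lhs => rw [fld, pi_eq_sum_univ (euler w (g.invFun y)), map_sum]
    simp only [map_smul]
  refine DifferentiableOn.congr ?_ (fun y _ => key y)
  apply DifferentiableOn.fun_const_smul
  refine DifferentiableOn.fun_sum fun j _ => ?_
  refine DifferentiableOn.smul (𝕜' := ℂ) ?_
    ((differentiableOn_fderiv_apply hU g.diff (fun i => if j = i then (1 : ℂ) else 0)).comp g.diff' g.mapsTo')
  have h1 : DifferentiableOn ℂ (fun y => euler w (g.invFun y)) U :=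
    (euler w).differentiable.comp_differentiableOn g.diff'
  exact differentiableOn_pi.1 h1 j

theorem fld_transport (d : QCData U w) (f g : Aut U) :
    fld w g (f.toFun 0) = fderiv ℂ f.toFun 0 (fld w (g.trans f.symm) 0) := by
  have hq : g.invFun (f.toFun 0) ∈ U := g.mapsTo' (f.mapsTo d.zero_mem)
  have dA : ∀ (a : Aut U) (x : Fin N → ℂ), x ∈ U → DifferentiableAt ℂ a.toFun x :=
    fun a x hx => a.diff.differentiableAt (d.isOpen.mem_nhds hx)
  set q := g.invFun (f.toFun 0) with hq'
  have e1 : g.toFun q = f.toFun 0 := g.right_inv _ (f.mapsTo d.zero_mem)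
  have hcomp : (fun x => f.toFun ((g.trans f.symm).toFun x)) =ᶠ[𝓝 q] g.toFun := by
    filter_upwards [d.isOpen.mem_nhds hq] with x hx
    exact f.right_inv _ (g.mapsTo hx)
  have e2 : (g.trans f.symm).toFun q = 0 := by
    show f.invFun (g.toFun q) = 0
    rw [e1, f.left_inv _ d.zero_mem]
  have := hcomp.fderiv_eq (𝕜 := ℂ)
  rw [fderiv_fun_comp q (e2.symm ▸ dA f 0 d.zero_mem) (dA (g.trans f.symm) q hq), e2] at this
  show Complex.I • fderiv ℂ g.toFun q (euler w q) = fderiv ℂ f.toFun 0
    (Complex.I • fderiv ℂ (g.trans f.symm).toFun q (euler w q))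
  rw [← this, map_smul]
  rfl

theorem hasStrictFDerivAt_rot_exp (z : Fin N → ℂ) (c : ℝ) :
    HasDerivAt (fun t : ℝ => wsmul w (Complex.exp (((c * t : ℝ) : ℂ) * Complex.I)) z)
      ((c : ℂ) • Complex.I • euler w z) 0 := by
  rw [hasDerivAt_pi]
  intro j
  have h1 : HasDerivAt (fun t : ℝ => ((c * t : ℝ) : ℂ) * Complex.I) ((c : ℂ) * Complex.I) 0 := by
    simpa using (((hasDerivAt_id (0 : ℝ)).const_mul c).ofReal_comp).mul_const Complex.I
  have h2 := (h1.cexp.pow (w j)).mul_const (z j)
  refine h2.congr_deriv ?_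
  simp [euler_apply]
  ring

variable (d : QCData U w)

include d

theorem vals_rot (ζ : ℂ) (h : ‖ζ‖ = 1) {v : Fin N → ℂ} (hv : v ∈ Set.range fun g : Aut U => fld w g 0) :
    wsmul w ζ v ∈ Set.range fun g : Aut U => fld w g 0 := by
  obtain ⟨g, rfl⟩ := hv
  refine ⟨g.trans (d.rotAut ζ h), ?_⟩
  have hlin : ∀ x, HasFDerivAt (wsmul w ζ)
      (ContinuousLinearMap.pi fun j => (ζ ^ w j) • ContinuousLinearMap.proj (R := ℂ) (φ := fun _ : Fin N => ℂ) j) x := by
    intro x
    have : wsmul w ζ = ⇑(ContinuousLinearMap.pi fun j =>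
        (ζ ^ w j) • ContinuousLinearMap.proj (R := ℂ) (φ := fun _ : Fin N => ℂ) j) := by
      funext z j; simp [wsmul]
    rw [this]
    exact ContinuousLinearMap.hasFDerivAt _
  have hq : g.invFun (wsmul w ζ⁻¹ 0) = g.invFun 0 := by rw [wsmul_zero_vec]
  show Complex.I • fderiv ℂ (fun x => wsmul w ζ (g.toFun x)) (g.invFun (wsmul w ζ⁻¹ 0))
    (euler w (g.invFun (wsmul w ζ⁻¹ 0))) = _
  rw [hq]
  have hg := (g.diff.differentiableAt (d.isOpen.mem_nhds (g.mapsTo' d.zero_mem))).hasFDerivAt
  have hfd := ((hlin _).comp (g.invFun 0) hg).fderiv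
  rw [Function.comp_def] at hfd
  rw [hfd]
  funext j
  simp [fld, wsmul]
  ring

/-- Abbreviation for the real span of the field values. -/
theorem span_rot {ζ : ℂ} (hζ : ‖ζ‖ = 1) {u : Fin N → ℂ}
    (hu : u ∈ Submodule.span ℝ (Set.range fun g : Aut U => fld w g 0)) :
    wsmul w ζ u ∈ Submodule.span ℝ (Set.range fun g : Aut U => fld w g 0) := by
  induction hu using Submodule.span_induction with
  | mem x hx => exact Submodule.subset_span (d.vals_rot ζ hζ hx)
  | zero => rw [wsmul_zero_vec]; exact Submodule.zero_mem _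
  | add a b _ _ ha hb =>
    rw [show wsmul w ζ (a + b) = wsmul w ζ a + wsmul w ζ b by funext j; simp [wsmul, mul_add]]
    exact add_mem ha hb
  | smul a b _ hb =>
    rw [show wsmul w ζ (a • b) = a • wsmul w ζ b by funext j; simp [wsmul]; ring]
    exact Submodule.smul_mem _ _ hb

omit d in
theorem span_gen (V : Submodule ℝ (Fin N → ℂ))
    (hrot : ∀ ζ : ℂ, ‖ζ‖ = 1 → ∀ u ∈ V, wsmul w ζ u ∈ V) {u : Fin N → ℂ} (hu : u ∈ V) :
    Complex.I • euler w u ∈ V := by
  have hd := hasStrictFDerivAt_rot_exp (w := w) u 1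
  simp only [Complex.ofReal_one, one_smul, one_mul] at hd
  refine (Submodule.closed_of_finiteDimensional V).mem_of_tendsto
    hd.tendsto_slope_zero (Eventually.of_forall fun t => ?_)
  simp only [zero_add, Complex.ofReal_zero, zero_mul, Complex.exp_zero, wsmul_one]
  exact Submodule.smul_mem _ _ (sub_mem (hrot _ (Complex.norm_exp_ofReal_mul_I t) u hu) hu)

omit d in
theorem gen_sq (V : Submodule ℝ (Fin N → ℂ)) (hJ : ∀ u ∈ V, Complex.I • euler w u ∈ V)
    {u : Fin N → ℂ} (hu : u ∈ V) : (fun j => ((w j : ℂ) ^ 2) * u j) ∈ V := by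
  have h := Submodule.neg_mem V (hJ _ (hJ u hu))
  have e : -(Complex.I • euler w (Complex.I • euler w u)) = fun j => ((w j : ℂ) ^ 2) * u j := by
    funext j
    simp [euler_apply]
    linear_combination (-((w j : ℂ) * ((w j : ℂ) * u j))) * Complex.I_mul_I
  rwa [e] at h

omit d in
theorem poly_mem (V : Submodule ℝ (Fin N → ℂ)) (c : Fin N → ℝ)
    (hc : ∀ u ∈ V, (fun j => (c j : ℂ) * u j) ∈ V) (p : Polynomial ℝ) :
    ∀ u ∈ V, (fun j => ((p.eval (c j) : ℝ) : ℂ) * u j) ∈ V := by
  induction p using Polynomial.induction_on with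
  | C a =>
    intro u hu
    have e : (fun j => (((Polynomial.C a).eval (c j) : ℝ) : ℂ) * u j) = a • u := by funext j; simp
    rw [e]
    exact Submodule.smul_mem V a hu
  | add p q hp hq =>
    intro u hu
    have e : (fun j => (((p + q).eval (c j) : ℝ) : ℂ) * u j) =
        (fun j => ((p.eval (c j) : ℝ) : ℂ) * u j) + fun j => ((q.eval (c j) : ℝ) : ℂ) * u j := by
      funext j; simp [add_mul]
    rw [e]
    exact add_mem (hp u hu) (hq u hu)
  | monomial n a ih =>
    intro u hu
    have := ih _ (hc u hu)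
    have e : (fun j => (((Polynomial.C a * Polynomial.X ^ (n + 1)).eval (c j) : ℝ) : ℂ) * u j) =
        fun j => (((Polynomial.C a * Polynomial.X ^ n).eval (c j) : ℝ) : ℂ) *
          ((c j : ℂ) * u j) := by
      funext j; simp [pow_succ]; ring
    rw [e]
    exact this

omit d in
theorem exists_inv_poly :
    ∃ p : Polynomial ℝ, ∀ j, p.eval ((w j : ℝ) ^ 2) = ((w j : ℝ))⁻¹ := by
  classical
  set S : Finset ℕ := Finset.univ.image w with hS
  have hinj : Set.InjOn (fun n : ℕ => ((n : ℝ)) ^ 2) (S : Set ℕ) := by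
    intro a _ b _ hab
    exact_mod_cast (pow_left_inj₀ (Nat.cast_nonneg a) (Nat.cast_nonneg b) two_ne_zero).1 hab
  exact ⟨Lagrange.interpolate S (fun n : ℕ => ((n : ℝ)) ^ 2) (fun n => ((n : ℝ))⁻¹),
    fun j => Lagrange.eval_interpolate_at_node (v := fun n : ℕ => ((n : ℝ)) ^ 2)
      (fun n : ℕ => ((n : ℝ))⁻¹) hinj (Finset.mem_image_of_mem w (Finset.mem_univ j))⟩

/-- The real span of the field values is closed under multiplication by `I`. -/
theorem span_I {v : Fin N → ℂ}
    (hv : v ∈ Submodule.span ℝ (Set.range fun g : Aut U => fld w g 0)) :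
    Complex.I • v ∈ Submodule.span ℝ (Set.range fun g : Aut U => fld w g 0) := by
  have hJ : ∀ u ∈ Submodule.span ℝ (Set.range fun g : Aut U => fld w g 0),
      Complex.I • euler w u ∈ Submodule.span ℝ (Set.range fun g : Aut U => fld w g 0) :=
    fun u hu => span_gen _ (fun ζ hζ u hu => d.span_rot hζ hu) hu
  obtain ⟨p, hpe⟩ := exists_inv_poly (w := w)
  have h := poly_mem _ (fun j => (w j : ℝ) ^ 2)
    (fun u hu => by
      simp only [Complex.ofReal_pow, Complex.ofReal_natCast]
      exact gen_sq _ hJ hu) p v hv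
  have h' := hJ _ h
  have e : Complex.I • euler w (fun j => ((p.eval ((w j : ℝ) ^ 2) : ℝ) : ℂ) * v j) =
      Complex.I • v := by
    funext j
    have : (w j : ℂ) ≠ 0 := by exact_mod_cast (d.wpos j).ne'
    simp [euler_apply, hpe]
    field_simp
  rwa [e] at h'

/-- The field values span over the reals. -/
theorem span_eq_top :
    Submodule.span ℝ (Set.range fun g : Aut U => fld w g 0) = ⊤ := by
  classical
  by_contra htop
  set S := Set.range fun g : Aut U => fld w g 0 with hS
  set V := Submodule.span ℂ S with hV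
  have hVR : ∀ v ∈ V, v ∈ Submodule.span ℝ S := by
    intro v hv
    induction hv using Submodule.span_induction with
    | mem x hx => exact Submodule.subset_span hx
    | zero => exact Submodule.zero_mem _
    | add a b _ _ ha hb => exact add_mem ha hb
    | smul c b _ hb =>
      rw [show c • b = c.re • b + c.im • (Complex.I • b) by
        conv_lhs => rw [← Complex.re_add_im c]
        rw [add_smul, mul_smul, Complex.coe_smul, Complex.coe_smul]]
      exact add_mem (Submodule.smul_mem _ _ hb) (Submodule.smul_mem _ _ (d.span_I hb))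
  have hne : V ≠ ⊤ := fun h => htop (top_unique fun v _ => hVR v (h ▸ Submodule.mem_top))
  obtain ⟨u0, hu0⟩ : ∃ u0, u0 ∉ V := by
    by_contra hc
    push Not at hc
    exact hne (top_unique fun v _ => hc v)
  obtain ⟨b, hbS, hVb, hbi⟩ := exists_linearIndependent ℂ S
  have hbfin : b.Finite := hbi.setFinite
  obtain ⟨r, e, heq⟩ := hbfin.fin_param
  have hgi : ∀ i : Fin r, ∃ g : Aut U, fld w g 0 = e i := fun i => hbS (heq.2 ▸ ⟨i, rfl⟩)
  choose G hG using hgi
  set y0 : Fin N → ℂ := fun j => ((w j : ℂ))⁻¹ * u0 j with hy0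
  have hy0W : euler w y0 = u0 := by
    funext j
    have : (w j : ℂ) ≠ 0 := by exact_mod_cast (d.wpos j).ne'
    simp [euler_apply, hy0, this]
  have hei : LinearIndependent ℂ e := by
    have := hbi.comp (fun i : Fin r => (⟨e i, heq.2 ▸ ⟨i, rfl⟩⟩ : b))
      (fun i j h => heq.1 (congrArg Subtype.val h))
    exact this
  have hci : LinearIndependent ℂ (Fin.cons u0 e : Fin (r + 1) → Fin N → ℂ) := by
    rw [linearIndependent_finCons]
    refine ⟨hei, ?_⟩
    rw [heq.2, hVb]
    exact hu0
  obtain ⟨φ, hφ⟩ : ∃ φ : (Fin N → ℂ) →ₗ[ℂ] (Fin (r + 1) → ℂ),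
      ∀ i, φ ((Fin.cons u0 e : Fin (r + 1) → Fin N → ℂ) i) = Pi.single i 1 := by
    obtain ⟨φ, hφ⟩ := LinearMap.exists_leftInverse_of_injective
      (Fintype.linearCombination ℂ (Fin.cons u0 e : Fin (r + 1) → Fin N → ℂ))
      (LinearMap.ker_eq_bot.2 hci.fintypeLinearCombination_injective)
    refine ⟨φ, fun i => ?_⟩
    have := LinearMap.congr_fun hφ (Pi.single i 1)
    simpa [Fintype.linearCombination_apply_single] using this
  set A : (Fin N → ℂ) → (Fin N → ℂ) → Matrix (Fin (r + 1)) (Fin (r + 1)) ℂ := fun top y =>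
    Matrix.of fun i j => φ ((Fin.cons top (fun k => fld w (G k) y) : Fin (r + 1) → _) i) j with hA
  set F : (Fin N → ℂ) → ℂ := fun y => (A (euler w y) y).det with hF
  have hrow : DifferentiableOn ℂ (fun y => fun i =>
      φ ((Fin.cons (euler w y) (fun k => fld w (G k) y) : Fin (r + 1) → _) i)) U := by
    rw [differentiableOn_pi]
    refine Fin.cases ?_ ?_
    · simp only [Fin.cons_zero]
      exact (φ.toContinuousLinearMap.comp (euler w)).differentiable.differentiableOn
    · intro k
      simpa [Function.comp_def] using φ.toContinuousLinearMap.differentiable.comp_differentiableOn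
        (differentiableOn_fld (w := w) d.isOpen (G k))
  have hFd : DifferentiableOn ℂ F U := by
    simp only [hF, Matrix.det_apply]
    refine DifferentiableOn.fun_sum fun σ _ => DifferentiableOn.const_smul ?_ _
    intro y hy
    exact (HasFDerivWithinAt.finsetProd fun i _ =>
      (differentiableOn_pi.1 (differentiableOn_pi.1 hrow (σ i)) i y hy).hasFDerivWithinAt
      ).differentiableWithinAt
  have hF0 : ∀ y ∈ orbit U, F y = 0 := by
    rintro _ ⟨f, rfl⟩
    set D := fderiv ℂ f.toFun 0 with hD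
    set W := V.map D.toLinearMap with hW
    have hmem : ∀ i, (Fin.cons (euler w (f.toFun 0)) (fun k => fld w (G k) (f.toFun 0)) :
        Fin (r + 1) → _) i ∈ W := by
      refine Fin.cases ?_ ?_
      · have h1 : fld w (Aut.one U) (f.toFun 0) = Complex.I • euler w (f.toFun 0) := by
          simp [fld, Aut.one, fderiv_id]
        have h2 : fld w (Aut.one U) (f.toFun 0) ∈ W := by
          rw [fld_transport d]
          exact Submodule.mem_map_of_mem (Submodule.subset_span ⟨_, rfl⟩)
        rw [h1] at h2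
        simpa [smul_smul] using W.smul_mem (-Complex.I) h2
      · intro k
        simp only [Fin.cons_succ]
        rw [fld_transport d]
        exact Submodule.mem_map_of_mem (Submodule.subset_span ⟨_, rfl⟩)
    have hrk : Module.finrank ℂ W ≤ r := by
      refine (Submodule.finrank_map_le _ _).trans ?_
      rw [hV, ← hVb, ← heq.2]
      simpa [Set.finrank] using (finrank_range_le_card e)
    have hdep : ¬ LinearIndependent ℂ (fun i => (⟨_, hmem i⟩ : W)) := by
      intro hli
      have := hli.fintype_card_le_finrank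
      simp at this
      omega
    obtain ⟨c, hc, i, hi⟩ := Fintype.not_linearIndependent_iff.1 hdep
    refine Matrix.exists_vecMul_eq_zero_iff.1 ⟨c, fun h => hi (congrFun h i), ?_⟩
    funext j
    have := congrFun (congrArg φ (congrArg Subtype.val hc)) j
    simpa [Matrix.vecMul, dotProduct, hA, map_sum, map_smul, Finset.sum_apply] using this
  have hall := d.vanishing hFd hF0
  have hscale : ∀ s : ℂ, F (s • y0) = s * (A u0 (s • y0)).det := by
    intro s
    have : A (euler w (s • y0)) (s • y0) =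
        Matrix.updateRow (A u0 (s • y0)) 0 (s • φ u0) := by
      ext i j
      refine Fin.cases ?_ ?_ i
      · simp [hA, hy0W, map_smul]
      · intro k; simp [hA, Fin.succ_ne_zero]
    rw [hF]
    simp only [this, Matrix.det_updateRow_smul]
    congr 2
    ext i j
    refine Fin.cases ?_ ?_ i
    · simp [hA]
    · intro k; simp [Fin.succ_ne_zero]
  have hA0 : A u0 0 = 1 := by
    ext i j
    have : (Fin.cons u0 (fun k => fld w (G k) 0) : Fin (r + 1) → _) = Fin.cons u0 e := by
      rw [funext hG]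
    simp [hA, this, hφ, Pi.single_apply, Matrix.one_apply, eq_comm]
  have hcont : ContinuousAt (fun s : ℂ => (A u0 (s • y0)).det) 0 := by
    have hcl : ∀ i, ContinuousAt (fun y => (Fin.cons u0 (fun k => fld w (G k) y) :
        Fin (r + 1) → _) i) 0 := by
      refine Fin.cases ?_ ?_
      · simpa using continuousAt_const
      · intro k
        simpa using (differentiableOn_fld (w := w) d.isOpen (G k)).continuousOn.continuousAt
          (d.isOpen.mem_nhds d.zero_mem)
    have hs : ContinuousAt (fun s : ℂ => s • y0) 0 := by fun_prop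
    refine (continuous_id.matrix_det).continuousAt.comp ?_
    refine continuousAt_pi.2 fun i => continuousAt_pi.2 fun j => ?_
    have := ((continuous_apply j).comp φ.toContinuousLinearMap.continuous).continuousAt.comp
      ((hcl i).comp_of_eq hs (by simp))
    simpa [hA, Function.comp_def] using this
  have hev : ∀ᶠ s : ℂ in 𝓝[≠] 0, False := by
    have h1 : ∀ᶠ s : ℂ in 𝓝 0, (A u0 (s • y0)).det ≠ 0 :=
      hcont.eventually_ne (by simp [hA0])
    have h2 : ∀ᶠ s : ℂ in 𝓝 0, s • y0 ∈ U :=
      (show Continuous fun s : ℂ => s • y0 by fun_prop).continuousAt.preimage_mem_nhds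
        (d.isOpen.mem_nhds (by simpa using d.zero_mem))
    filter_upwards [h1.filter_mono nhdsWithin_le_nhds, h2.filter_mono nhdsWithin_le_nhds,
      self_mem_nhdsWithin] with s hs1 hs2 hs3
    have := hall _ hs2
    rw [hscale] at this
    exact mul_ne_zero hs3 hs1 this
  exact hev.exists.elim fun _ h => h

theorem exists_param : ∀ (k : ℕ) (g : Fin k → Aut U),
    ∃ Φ : (Fin k → ℝ) → (Fin N → ℂ), Φ 0 = 0 ∧
      HasStrictFDerivAt Φ
        (∑ i, (ContinuousLinearMap.proj (R := ℝ) (φ := fun _ : Fin k => ℝ) i).smulRight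
          (fld w (g i) 0)) 0 ∧ ∀ t, Φ t ∈ orbit U := by
  intro k
  induction k with
  | zero =>
    intro g
    refine ⟨fun _ => 0, rfl, ?_, fun _ => ⟨Aut.one U, rfl⟩⟩
    simpa using hasStrictFDerivAt_const (𝕜 := ℝ) (0 : Fin N → ℂ) (0 : Fin 0 → ℝ)
  | succ k ih =>
    intro g
    obtain ⟨Φ, hΦ0, hΦd, hΦo⟩ := ih (fun i => g i.succ)
    set h := g 0 with hh
    set tail : (Fin (k + 1) → ℝ) →L[ℝ] (Fin k → ℝ) :=
      ContinuousLinearMap.pi fun i => ContinuousLinearMap.proj i.succ with htail
    set P0 : (Fin (k + 1) → ℝ) →L[ℝ] ℝ := ContinuousLinearMap.proj 0 with hP0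
    refine ⟨fun t => h.toFun (wsmul w (Complex.exp ((t 0 : ℂ) * Complex.I))
      (h.invFun (Φ (tail t)))), ?_, ?_, fun t => ?_⟩
    · simp [hΦ0, wsmul_one, h.right_inv 0 d.zero_mem]
    · set q := h.invFun 0 with hq
      have hqU : q ∈ U := h.mapsTo' d.zero_mem
      set Dg := fderiv ℂ h.toFun q with hDg
      set Di := fderiv ℂ h.invFun 0 with hDi
      set L := ∑ i, (ContinuousLinearMap.proj (R := ℝ) (φ := fun _ : Fin k => ℝ) i).smulRight
          (fld w (g i.succ) 0) with hL
      have hu : HasStrictFDerivAt (fun t => h.invFun (Φ (tail t)))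
          ((Di.restrictScalars ℝ).comp (L.comp tail)) 0 := by
        have h1 : HasStrictFDerivAt h.invFun (Di.restrictScalars ℝ) (Φ (tail 0)) := by
          rw [map_zero, hΦ0]
          exact (hasStrictFDerivAt_holo d.isOpen h.diff' d.zero_mem).restrictScalars ℝ
        have h2 : HasStrictFDerivAt Φ L (tail 0) := by rw [map_zero]; exact hΦd
        exact h1.comp 0 (h2.comp 0 tail.hasStrictFDerivAt)
      have hin : HasStrictFDerivAt
          (fun t : Fin (k + 1) → ℝ => wsmul w (Complex.exp ((t 0 : ℂ) * Complex.I))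
            (h.invFun (Φ (tail t))))
          ((Di.restrictScalars ℝ).comp (L.comp tail) + P0.smulRight (Complex.I • euler w q)) 0 := by
        rw [hasStrictFDerivAt_pi']
        intro j
        have he : HasStrictFDerivAt (fun t : Fin (k + 1) → ℝ => ((t 0 : ℂ) * Complex.I))
            (P0.smulRight Complex.I) 0 := by
          have := (P0.smulRight Complex.I).hasStrictFDerivAt (x := 0)
          refine this.congr_of_eventuallyEq (Eventually.of_forall fun t => ?_)
          simp [hP0, Complex.real_smul]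
        have hj := (hasStrictFDerivAt_pi'.1 hu j)
        have := (he.cexp.pow (w j)).mul hj
        refine this.congr_fderiv ?_
        ext v
        simp [hΦ0, ← hq, euler_apply, Complex.real_smul]
        ring
      have hout : HasStrictFDerivAt h.toFun (Dg.restrictScalars ℝ)
          ((fun t : Fin (k + 1) → ℝ => wsmul w (Complex.exp ((t 0 : ℂ) * Complex.I))
            (h.invFun (Φ (tail t)))) 0) := by
        simp only [Pi.zero_apply, Complex.ofReal_zero, zero_mul, Complex.exp_zero, wsmul_one,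
          map_zero, hΦ0]
        exact (hasStrictFDerivAt_holo d.isOpen h.diff hqU).restrictScalars ℝ
      refine (hout.comp 0 hin).congr_fderiv ?_
      have hinv : ∀ v, Dg (Di v) = v := by
        intro v
        have he : (fun x => h.toFun (h.invFun x)) =ᶠ[𝓝 0] id := by
          filter_upwards [d.isOpen.mem_nhds d.zero_mem] with x hx using h.right_inv x hx
        have := he.fderiv_eq (𝕜 := ℂ)
        rw [fderiv_fun_comp 0 (h.diff.differentiableAt (d.isOpen.mem_nhds hqU))
          (h.diff'.differentiableAt (d.isOpen.mem_nhds d.zero_mem)), fderiv_id] at this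
        exact congrArg (fun T : (Fin N → ℂ) →L[ℂ] (Fin N → ℂ) => T v) this
      refine ContinuousLinearMap.ext fun v => ?_
      simp only [ContinuousLinearMap.comp_apply, add_apply,
        ContinuousLinearMap.coe_restrictScalars', ContinuousLinearMap.smulRight_apply, map_add,
        hinv, Fin.sum_univ_succ, sum_apply]
      simp [hL, htail, hP0, fld, ← hh, ← hDg, ← hq, map_smul, add_comm]
    · exact orbit_inv h (orbit_inv (d.rotAut _ (Complex.norm_exp_ofReal_mul_I _))
        (orbit_inv h.symm (hΦo _)))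

theorem orbit_mem_nhds : orbit U ∈ 𝓝 (0 : Fin N → ℂ) := by
  obtain ⟨b, hbS, hVb, hbi⟩ := exists_linearIndependent ℝ (Set.range fun g : Aut U => fld w g 0)
  obtain ⟨r, e, heq⟩ := hbi.setFinite.fin_param
  have hgi : ∀ i : Fin r, ∃ g : Aut U, fld w g 0 = e i := fun i => hbS (heq.2 ▸ ⟨i, rfl⟩)
  choose G hG using hgi
  obtain ⟨Φ, hΦ0, hΦd, hΦo⟩ := d.exists_param r G
  have hsurj : LinearMap.range (∑ i, (ContinuousLinearMap.proj (R := ℝ)
      (φ := fun _ : Fin r => ℝ) i).smulRight (fld w (G i) 0) :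
        (Fin r → ℝ) →L[ℝ] (Fin N → ℂ)).toLinearMap = ⊤ := by
    rw [eq_top_iff, ← d.span_eq_top, ← hVb, ← heq.2, Submodule.span_le]
    rintro _ ⟨i, rfl⟩
    exact ⟨Pi.single i 1, by simp [Pi.single_apply, hG]⟩
  have := hΦd.map_nhds_eq_of_surj hsurj
  rw [← hΦ0, ← this]
  exact Filter.mem_map.2 (Eventually.of_forall hΦo)

theorem homogeneous {x : Fin N → ℂ} (hx : x ∈ U) : x ∈ orbit U := by
  obtain ⟨ε, hε, hεO⟩ := Metric.mem_nhds_iff.1 d.orbit_mem_nhds
  obtain ⟨M, hM, hMb⟩ := d.exists_bound
  have hlocal : ∀ k ∈ closure (orbit U), k ∈ U → k ∈ orbit U := by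
    intro k hk hkU
    obtain ⟨ρ, hρ, hρU⟩ := Metric.mem_nhds_iff.1 (d.isOpen.mem_nhds hkU)
    obtain ⟨z, ⟨f, rfl⟩, hzd⟩ := Metric.mem_closure_iff.1 hk
      (min (ρ / 2) (ε * ρ / (4 * M))) (by positivity)
    have h1 : dist k (f.toFun 0) < ρ / 2 := hzd.trans_le (min_le_left _ _)
    have h2 : dist k (f.toFun 0) < ε * ρ / (4 * M) := hzd.trans_le (min_le_right _ _)
    have hsub : ball (f.toFun 0) (ρ / 2) ⊆ U := by
      refine (ball_subset_ball' ?_).trans hρU
      rw [dist_comm]; linarith
    have hb := Complex.dist_le_div_mul_dist_of_mapsTo_ball (f := f.invFun) (c := f.toFun 0)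
      (R₁ := ρ / 2) (R₂ := M) (z := k) (f.diff'.mono hsub)
      (fun z hz => by
        rw [f.left_inv 0 d.zero_mem, mem_closedBall, dist_zero_right]
        exact hMb _ (f.mapsTo' (hsub hz)))
      (by rwa [mem_ball])
    rw [f.left_inv 0 d.zero_mem] at hb
    have hlt : dist (f.invFun k) 0 < ε := by
      calc _ ≤ M / (ρ / 2) * dist k (f.toFun 0) := hb
        _ < M / (ρ / 2) * (ε * ρ / (4 * M)) := by gcongr
        _ ≤ ε := by field_simp; linarith
    have := orbit_inv f (hεO hlt)
    rwa [f.right_inv k hkU] at this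
  have hopen : IsOpen (orbit U) := by
    rw [isOpen_iff_mem_nhds]
    rintro _ ⟨f, rfl⟩
    have hd : Tendsto f.invFun (𝓝 (f.toFun 0)) (𝓝 0) := by
      have := (f.diff'.continuousOn.continuousAt
        (d.isOpen.mem_nhds (f.mapsTo d.zero_mem))).tendsto
      rwa [f.left_inv 0 d.zero_mem] at this
    filter_upwards [hd d.orbit_mem_nhds, d.isOpen.mem_nhds (f.mapsTo d.zero_mem)] with y hy hyU
    have := orbit_inv f hy
    rwa [f.right_inv y hyU] at this
  exact d.preconn.subset_of_closure_inter_subset hopen ⟨0, d.zero_mem, Aut.one U, rfl⟩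
    (fun k hk => hlocal k hk.1 hk.2) hx

end QCData

end Vale.Agent.P274
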